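import Vale.Agent.P365.T2.H789.AvErr
import Vale.Agent.P365.T2.H789.Int
import Vale.Agent.P365.T2.H913.Ly
import Vale.Agent.P365.T2.H963.ContUps
import Vale.Agent.P365.T2.UpsBd844

/-!
# P365 T2, X-LAWERR (3), one site: from 775's deterministic half to the one-site law error

`Nh`, `BB`, `CC` = the objects of 775's signature; `SiteLaw` = his two deterministic statements;
`site_out`: `e_y |∫ ρ' th| ≤ ∫ ρ (9 CC) + K (1 + ℓ)² e_y ∑_j Yf (F_j) y`.
-/

set_option linter.all false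

namespace P365T2.H678

open MeasureTheory Set Filter P365L P365O P365T1 Vale.Agent.P365.J376 P365L.T2.Path
open P365T2.H844 P365H878
open scoped ComplexConjugate
open P365T2.H37 (wk HH HD rho)
open Vale.Agent.P365.T2.H789 (Dens)

section defs

variable {E : Type*} [NormedAddCommGroup E] [InnerProductSpace ℝ E]
variable {ι : Type*} [Fintype ι] [DecidableEq ι]

/-- `∑_b e_b |c_b|² |Φ_b - Φ_y|²` (independent of `W y`) -/
noncomputable def Nh (Φ : ι → E) (A : Matrix ι ι ℝ) (W : ι → ℂ) (y : ι) : ℝ :=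
  ∑ b, -(W b).im * ‖gw A W y b‖ ^ 2 * tt Φ b y

/-- `∑_x e_x |c_x|² V_x` (`V_x = Vr` at the actual configuration) -/
noncomputable def BB (Φ : ι → E) (A : Matrix ι ι ℝ) (W : ι → ℂ) (y : ι) : ℝ :=
  ∑ x, -(W x).im * ‖gw A W y x‖ ^ 2 * Vr Φ (TT A W) x

/-- content of `y` -/
noncomputable def CC (Φ : ι → E) (A : Matrix ι ι ℝ) (W : ι → ℂ) (y : ι) : ℝ :=
  ∑ x, TT A W x y * (∑ b, TT A W y b / pr (TT A W) y * tt Φ x b + Vr Φ (TT A W) x)

variable {Φ : ι → E} {A : Matrix ι ι ℝ} {W : ι → ℂ}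

theorem Nh_nonneg (hW : ∀ x, (W x).im < 0) (y : ι) : 0 ≤ Nh Φ A W y :=
  Finset.sum_nonneg fun b _ => mul_nonneg (mul_nonneg (by linarith [hW b]) (sq_nonneg _))
    (tt_nonneg _ _)

theorem BB_nonneg (hA : A.IsSymm) (hW : ∀ x, (W x).im < 0) (y : ι) : 0 ≤ BB Φ A W y :=
  Finset.sum_nonneg fun x _ => mul_nonneg (mul_nonneg (by linarith [hW x]) (sq_nonneg _))
    (Vr_nonneg (TT_nonneg hW) (pr_TT_pos hA hW) x)

theorem CC_inner_nonneg (hA : A.IsSymm) (hW : ∀ x, (W x).im < 0) (x y : ι) :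
    0 ≤ ∑ b, TT A W y b / pr (TT A W) y * tt Φ x b :=
  Finset.sum_nonneg fun b _ => mul_nonneg
    (div_nonneg (TT_nonneg hW y b) (pr_TT_pos hA hW y).le) (tt_nonneg _ _)

theorem CC_nonneg (hA : A.IsSymm) (hW : ∀ x, (W x).im < 0) (y : ι) : 0 ≤ CC Φ A W y :=
  Finset.sum_nonneg fun x _ => mul_nonneg (TT_nonneg hW x y)
    (add_nonneg (CC_inner_nonneg hA hW x y) (Vr_nonneg (TT_nonneg hW) (pr_TT_pos hA hW) x))

/-- `e_y |G_yy|² BB_y = ∑_x T_xy V_x` -/
theorem e_mul_BB (hA : A.IsSymm) (hW : ∀ x, (W x).im < 0) (y : ι) :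
    -(W y).im * ‖Gr A W y y‖ ^ 2 * BB Φ A W y = ∑ x, TT A W x y * Vr Φ (TT A W) x := by
  unfold BB
  rw [Finset.mul_sum]
  refine Finset.sum_congr rfl fun x _ => ?_
  have h1 := KK_eq_gw hA hW y x
  unfold TT
  rw [KK_symm hA x y, h1]
  ring

theorem e_mul_BB_le (hA : A.IsSymm) (hW : ∀ x, (W x).im < 0) (y : ι) :
    -(W y).im * ‖Gr A W y y‖ ^ 2 * BB Φ A W y ≤ CC Φ A W y := by
  rw [e_mul_BB hA hW]
  refine Finset.sum_le_sum fun x _ => mul_le_mul_of_nonneg_left ?_ (TT_nonneg hW x y)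
  linarith [CC_inner_nonneg (Φ := Φ) hA hW x y]

theorem continuousOn_CC (hA : A.IsSymm) (y : ι) :
    ContinuousOn (fun W : ι → ℂ => CC Φ A W y) (LH ι) := by
  unfold CC
  refine continuousOn_finset_sum _ fun x _ => ?_
  refine (contDiffOn_TT (n := 0) hA x y).continuousOn.mul (ContinuousOn.add ?_ ?_)
  · exact continuousOn_finset_sum _ fun b _ =>
      (contDiffOn_TTpr (n := 0) hA y b).continuousOn.mul continuousOn_const
  · exact (contDiffOn_Vr (n := 0) hA x).continuousOn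

theorem continuousOn_BB (hA : A.IsSymm) (y : ι) :
    ContinuousOn (fun W : ι → ℂ => BB Φ A W y) (LH ι) := by
  unfold BB
  refine continuousOn_finset_sum _ fun x _ => ?_
  refine ContinuousOn.mul (ContinuousOn.mul ?_ ?_) (contDiffOn_Vr (n := 0) hA x).continuousOn
  · exact (contDiff_e (n := 0) x).continuous.continuousOn
  · exact ((contDiffOn_gw (n := 0) hA y x).continuousOn.norm).pow 2

theorem Nh_fam {κ : Type*} [Fintype κ] (F : κ → ι → ℝ) (y : ι) :
    Nh (fam F) A W y = ∑ j, Nf A W (F j) y := by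
  unfold Nh Nf
  rw [Finset.sum_comm]
  refine Finset.sum_congr rfl fun b _ => ?_
  rw [tt_fam, Finset.mul_sum]

/-- the two deterministic statements of 775 (th1 = part with the multiplier `G'`, th2 = mass part) -/
structure SiteLaw (Φ : ι → E) (A : Matrix ι ι ℝ) (y : ι) (th1 th2 : (ι → ℂ) → ℝ)
    (a1 a2 : ℝ) : Prop where
  ha1 : 0 ≤ a1
  ha2 : 0 ≤ a2
  c1 : ContinuousOn th1 (LH ι)
  c2 : ContinuousOn th2 (LH ι)
  d1 : ∀ W ∈ LH ι, ∀ v v0 : ℝ, |th1 (rez W y v) - th1 (rez W y v0)| ≤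
    |v - v0| * ‖Gr A (rez W y v) y y‖ * ‖Gr A (rez W y v0) y y‖ *
      (a1 * Nh Φ A W y + a2 * Real.sqrt (Nh Φ A W y) * Real.sqrt (BB Φ A (rez W y v0) y))
  d2 : ∃ dd : (ι → ℂ) → ℝ,
    (∀ W ∈ LH ι, ∀ v : ℝ, HasDerivAt (fun v : ℝ => th2 (rez W y v)) (dd (rez W y v)) v) ∧
    (∀ W ∈ LH ι, -(W y).im * |dd W| ≤ 8 * CC Φ A W y) ∧ ContinuousOn dd (LH ι)

end defs

section site

variable {E' : Type*} [NormedAddCommGroup E'] [InnerProductSpace ℝ E']
variable {ι : Type*} [Fintype ι] [DecidableEq ι] {Φ : ι → E'} {A : Matrix ι ι ℝ} {W : ι → ℂ}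
  {y : ι} {th1 th2 : (ι → ℂ) → ℝ} {a1 a2 E : ℝ} {ρ ρ' : ℝ → ℝ} {L C0 C1 : ℝ}

theorem rez_mem' (hW : W ∈ LH ι) (y : ι) (v : ℝ) : rez W y v ∈ LH ι := rez_neg hW y v

theorem rez_self_im (W : ι → ℂ) (y : ι) (v : ℝ) : (rez W y v y).im = (W y).im := by
  unfold rez
  rw [Function.update_self]
  exact rez_im y v

theorem continuous_line (hW : W ∈ LH ι) {G : (ι → ℂ) → ℝ} (hG : ContinuousOn G (LH ι)) (y : ι)
    (E : ℝ) : Continuous fun v : ℝ => G (rez W y (v - E)) := by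
  refine hG.comp_continuous ?_ fun v => rez_mem' hW y _
  unfold rez
  refine continuous_const.update y ?_
  exact (Complex.continuous_ofReal.comp (continuous_id.sub continuous_const)).add continuous_const

/-- `l_y` -/
noncomputable def ly (A : Matrix ι ι ℝ) (W : ι → ℂ) (y : ι) (L E : ℝ) : ℝ :=
  ∫ t in (-L)..L, ‖Gr A (rez W y (t - E)) y y‖

/-- **the one-site law error, before the integral `l_y` is estimated** -/
theorem site_out (hA : A.IsSymm) (hW : W ∈ LH ι) (hS : SiteLaw Φ A y th1 th2 a1 a2)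
    (hD : Dens ρ ρ' L C0 C1) :
    -(W y).im * |∫ t, ρ' t * (th1 (rez W y (t - E)) + th2 (rez W y (t - E)))| ≤
      (∫ t, ρ t * (9 * CC Φ A (rez W y (t - E)) y)) +
        (2 * L * C1 * C0 * a1 + (L * C1 * a2) ^ 2) *
          (-(W y).im * Nh Φ A W y * ly A W y L E ^ 2) := by
  have he : 0 < -(W y).im := by linarith [hW y]
  have hN : 0 ≤ Nh Φ A W y := Nh_nonneg hW y
  have hL := hD.L0
  have hC1 := hD.C1_nonneg
  have hC0 := hD.C0_nonneg
  have ha1 := hS.ha1
  have ha2 := hS.ha2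
  have cGr : ContinuousOn (fun W : ι → ℂ => ‖Gr A W y y‖) (LH ι) :=
    (P365L.T2.Path.contDiffOn_Gr (n := 0) hA y y).continuousOn.norm
  have ct : Continuous fun v : ℝ => ‖Gr A (rez W y (v - E)) y y‖ :=
    continuous_line hW (G := fun W => ‖Gr A W y y‖) cGr y E
  have c1 := continuous_line hW hS.c1 y E
  have c2 := continuous_line hW hS.c2 y E
  have cB := continuous_line hW (continuousOn_BB (Φ := Φ) hA y) y E
  have cC := continuous_line hW (continuousOn_CC (Φ := Φ) hA y) y E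
  set l : ℝ := ly A W y L E with hl
  have hl0 : 0 ≤ l := by
    rw [hl]
    exact intervalIntegral.integral_nonneg (by linarith) fun t _ => norm_nonneg _
  set N : ℝ := Nh Φ A W y with hNdef
  set e : ℝ := -(W y).im with hedef
  -- first part
  have h1 := hD.int_le (f := fun v => th1 (rez W y (v - E)))
    (τ := fun v => ‖Gr A (rez W y (v - E)) y y‖)
    (be := fun v => a2 * Real.sqrt N * Real.sqrt (BB Φ A (rez W y (v - E)) y))
    (al := a1 * N) c1 ct (continuous_const.mul (Real.continuous_sqrt.comp cB))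
    (fun t => norm_nonneg _) (fun t => by positivity) (by positivity) (fun v v₀ _ _ => by
      have h2 := hS.d1 W hW (v - E) (v₀ - E)
      rw [show v - E - (v₀ - E) = v - v₀ by ring] at h2
      refine h2.trans (le_of_eq ?_)
      ring)
  have hl' : ∫ t in (-L)..L, ‖Gr A (rez W y (t - E)) y y‖ = l := rfl
  simp only [hl'] at h1
  -- Young
  have iC : Integrable fun t => ρ t * CC Φ A (rez W y (t - E)) y := hD.integrable_mul cC
  have h3 : e * (2 * L * C1 * l * ∫ t, ρ t * (‖Gr A (rez W y (t - E)) y y‖ *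
      (a2 * Real.sqrt N * Real.sqrt (BB Φ A (rez W y (t - E)) y)))) ≤
      (L * C1 * a2) ^ 2 * (e * N * l ^ 2) + ∫ t, ρ t * CC Φ A (rez W y (t - E)) y := by
    rw [← integral_const_mul, ← integral_const_mul]
    have h4 : (L * C1 * a2) ^ 2 * (e * N * l ^ 2) =
        ∫ t, ρ t * ((L * C1 * a2) ^ 2 * (e * N * l ^ 2)) := by
      rw [integral_mul_const, hD.one, one_mul]
    rw [h4, ← integral_add (hD.integrable_mul continuous_const) iC]
    refine integral_mono ?_ ((hD.integrable_mul continuous_const).add iC) fun t => ?_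
    · exact ((hD.integrable_mul (ct.mul (continuous_const.mul
        (Real.continuous_sqrt.comp cB)))).const_mul _).const_mul _
    · have hB : 0 ≤ BB Φ A (rez W y (t - E)) y := BB_nonneg hA (rez_mem' hW y _) y
      have h5 := e_mul_BB_le (Φ := Φ) hA (rez_mem' hW y (t - E)) y
      rw [rez_self_im, ← hedef] at h5
      have s1 := Real.sq_sqrt hN
      have s2 := Real.sq_sqrt hB
      have s3 := Real.sq_sqrt he.le
      have h6 : e * (2 * L * C1 * l * (‖Gr A (rez W y (t - E)) y y‖ *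
          (a2 * Real.sqrt N * Real.sqrt (BB Φ A (rez W y (t - E)) y)))) ≤
          (L * C1 * a2) ^ 2 * (e * N * l ^ 2) + CC Φ A (rez W y (t - E)) y := by
        refine le_trans ?_ (add_le_add le_rfl h5)
        have h7 : (L * C1 * a2) ^ 2 * (e * N * l ^ 2) +
            e * ‖Gr A (rez W y (t - E)) y y‖ ^ 2 * BB Φ A (rez W y (t - E)) y -
            e * (2 * L * C1 * l * (‖Gr A (rez W y (t - E)) y y‖ *
          (a2 * Real.sqrt N * Real.sqrt (BB Φ A (rez W y (t - E)) y)))) =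
            e * (L * C1 * a2 * l * Real.sqrt N -
              ‖Gr A (rez W y (t - E)) y y‖ * Real.sqrt (BB Φ A (rez W y (t - E)) y)) ^ 2 := by
          calc _ = (L * C1 * a2) ^ 2 * (e * Real.sqrt N ^ 2 * l ^ 2) +
            e * ‖Gr A (rez W y (t - E)) y y‖ ^ 2 *
              Real.sqrt (BB Φ A (rez W y (t - E)) y) ^ 2 -
            e * (2 * L * C1 * l * (‖Gr A (rez W y (t - E)) y y‖ *
          (a2 * Real.sqrt N * Real.sqrt (BB Φ A (rez W y (t - E)) y)))) := by rw [s1, s2]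
            _ = _ := by ring
        have h8 : 0 ≤ e * (L * C1 * a2 * l * Real.sqrt N -
              ‖Gr A (rez W y (t - E)) y y‖ * Real.sqrt (BB Φ A (rez W y (t - E)) y)) ^ 2 := by
          positivity
        linarith
      have h9 := mul_le_mul_of_nonneg_left h6 (hD.nn t)
      calc _ = ρ t * (e * (2 * L * C1 * l * (‖Gr A (rez W y (t - E)) y y‖ *
          (a2 * Real.sqrt N * Real.sqrt (BB Φ A (rez W y (t - E)) y))))) := by ring
        _ ≤ _ := h9
        _ = _ := by ring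
  have hF1 : e * |∫ t, ρ' t * th1 (rez W y (t - E))| ≤
      (2 * L * C1 * C0 * a1 + (L * C1 * a2) ^ 2) * (e * N * l ^ 2) +
        ∫ t, ρ t * CC Φ A (rez W y (t - E)) y := by
    have h5 := mul_le_mul_of_nonneg_left h1 he.le
    calc _ ≤ _ := h5
      _ = 2 * L * C1 * C0 * a1 * (e * N * l ^ 2) + e * (2 * L * C1 * l *
          ∫ t, ρ t * (‖Gr A (rez W y (t - E)) y y‖ *
      (a2 * Real.sqrt N * Real.sqrt (BB Φ A (rez W y (t - E)) y)))) := by ring
      _ ≤ _ := by linarith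
  -- second part
  obtain ⟨dd, hd1, hd2, hd3⟩ := hS.d2
  have cd := continuous_line hW hd3 y E
  have hF2 : e * |∫ t, ρ' t * th2 (rez W y (t - E))| ≤
      ∫ t, ρ t * (8 * CC Φ A (rez W y (t - E)) y) := by
    have h5 := hD.ibp (g := fun t => th2 (rez W y (t - E)))
      (g' := fun t => dd (rez W y (t - E)))
      (fun v => (hd1 W hW (v - E)).comp_sub_const v E) cd
    rw [h5, abs_neg, ← abs_of_pos he, ← abs_mul, ← integral_const_mul]
    refine abs_integral_le_integral_abs.trans ?_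
    refine integral_mono (((hD.integrable_mul cd).const_mul _).abs)
      (hD.integrable_mul (continuous_const.mul cC)) fun t => ?_
    have h6 := hd2 _ (rez_mem' hW y (t - E))
    rw [rez_self_im, ← hedef] at h6
    have h7 := mul_le_mul_of_nonneg_left h6 (hD.nn t)
    rw [abs_mul, abs_mul, abs_of_pos he, abs_of_nonneg (hD.nn t)]
    calc _ = ρ t * (e * |dd (rez W y (t - E))|) := by ring
      _ ≤ _ := h7
  -- together
  have e1 : ∫ t, ρ' t * (th1 (rez W y (t - E)) + th2 (rez W y (t - E))) =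
      (∫ t, ρ' t * th1 (rez W y (t - E))) + ∫ t, ρ' t * th2 (rez W y (t - E)) := by
    rw [← integral_add (hD.integrable_mul' c1) (hD.integrable_mul' c2)]
    congr 1
    funext t
    ring
  have e2 : ∫ t, ρ t * (9 * CC Φ A (rez W y (t - E)) y) =
      (∫ t, ρ t * CC Φ A (rez W y (t - E)) y) +
        ∫ t, ρ t * (8 * CC Φ A (rez W y (t - E)) y) := by
    have i8 : Integrable fun t => ρ t * (8 * CC Φ A (rez W y (t - E)) y) :=
      hD.integrable_mul (continuous_const.mul cC)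
    rw [← integral_add iC i8]
    congr 1
    funext t
    ring
  rw [e1, e2]
  have h10 := mul_le_mul_of_nonneg_left (abs_add_le (∫ t, ρ' t * th1 (rez W y (t - E)))
    (∫ t, ρ' t * th2 (rez W y (t - E)))) he.le
  rw [mul_add] at h10
  linarith

/-- `l_y² Nf ≤ C (1 + ℓ)² Yf` -/
theorem ly_sq_mul_Nf_le (hA : A.IsSymm) (hW : W ∈ LH ι) (f : ι → ℝ) (hL : 0 < L) {ℓ : ℝ}
    (hℓ : 0 ≤ ℓ) (hlow : Real.exp (-ℓ) ≤ -(W y).im) :
    Nf A W f y * ly A W y L E ^ 2 ≤ P365T2.H913.CLy L E ^ 2 * (1 + ℓ) ^ 2 * Yf A W f y := by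
  have hs := sz_im_pos hA hW y
  have h1 := P365T2.H913.int_inv_sq_le_E hL E hs
  have e1 : ly A W y L E = ∫ v in (-L)..L, 1 / ‖((v : ℂ) - E) - sz A W y‖ := by
    unfold ly
    refine intervalIntegral.integral_congr fun v _ => ?_
    show ‖Gr A (rez W y (v - E)) y y‖ = _
    rw [Gr_rez hA hW, norm_inv, one_div]
    push_cast
    rfl
  have h2 : max 0 (Real.log (1 / (sz A W y).im)) ≤ ℓ := by
    refine max_le hℓ ?_
    rw [one_div, Real.log_inv]
    have h3 : Real.exp (-ℓ) ≤ (sz A W y).im := by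
      rw [sz_im]
      linarith [sg_im_nonneg hA hW y]
    have h4 := Real.log_le_log (Real.exp_pos _) h3
    rw [Real.log_exp] at h4
    linarith
  have h5 := norm_sg_le_norm_sz hA hW y
  have hN := Nf_nonneg (A := A) hW f y
  have hC := P365T2.H913.CLy_pos hL E
  have h6 : ly A W y L E ^ 2 ≤ P365T2.H913.CLy L E ^ 2 * (1 + ℓ) ^ 2 / (1 + ‖sg A W y‖ ^ 2) := by
    rw [e1]
    refine h1.trans ?_
    have h7 : 0 ≤ max 0 (Real.log (1 / (sz A W y).im)) := le_max_left _ _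
    gcongr
  calc Nf A W f y * ly A W y L E ^ 2
      ≤ Nf A W f y * (P365T2.H913.CLy L E ^ 2 * (1 + ℓ) ^ 2 / (1 + ‖sg A W y‖ ^ 2)) :=
        mul_le_mul_of_nonneg_left h6 hN
    _ = _ := by unfold Yf; ring

/-- **the one-site law error, final form** -/
theorem site_final {κ : Type*} [Fintype κ] {F : κ → ι → ℝ} (hA : A.IsSymm) (hW : W ∈ LH ι)
    (hS : SiteLaw (fam F) A y th1 th2 a1 a2) (hD : Dens ρ ρ' L C0 C1) (hL : 0 < L) {ℓ : ℝ}
    (hℓ : 0 ≤ ℓ) (hlow : Real.exp (-ℓ) ≤ -(W y).im) :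
    -(W y).im * |∫ t, ρ' t * (th1 (rez W y (t - E)) + th2 (rez W y (t - E)))| ≤
      (∫ t, ρ t * (9 * CC (fam F) A (rez W y (t - E)) y)) +
        (2 * L * C1 * C0 * a1 + (L * C1 * a2) ^ 2) * (P365T2.H913.CLy L E ^ 2 * (1 + ℓ) ^ 2) *
          (-(W y).im * ∑ j, Yf A W (F j) y) := by
  have h1 := site_out (E := E) hA hW hS hD
  have he : 0 < -(W y).im := by linarith [hW y]
  have hK : 0 ≤ 2 * L * C1 * C0 * a1 + (L * C1 * a2) ^ 2 := by
    have := hD.C1_nonneg
    have := hD.C0_nonneg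
    have := hS.ha1
    positivity
  have h2 : -(W y).im * Nh (fam F) A W y * ly A W y L E ^ 2 ≤
      P365T2.H913.CLy L E ^ 2 * (1 + ℓ) ^ 2 * (-(W y).im * ∑ j, Yf A W (F j) y) := by
    rw [Nh_fam]
    have h3 : (∑ j, Nf A W (F j) y) * ly A W y L E ^ 2 ≤
        P365T2.H913.CLy L E ^ 2 * (1 + ℓ) ^ 2 * ∑ j, Yf A W (F j) y := by
      rw [Finset.sum_mul, Finset.mul_sum]
      exact Finset.sum_le_sum fun j _ => ly_sq_mul_Nf_le hA hW (F j) hL hℓ hlow
    calc _ = -(W y).im * ((∑ j, Nf A W (F j) y) * ly A W y L E ^ 2) := by ring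
      _ ≤ -(W y).im * (P365T2.H913.CLy L E ^ 2 * (1 + ℓ) ^ 2 * ∑ j, Yf A W (F j) y) :=
          mul_le_mul_of_nonneg_left h3 he.le
      _ = _ := by ring
  have h4 := mul_le_mul_of_nonneg_left h2 hK
  calc _ ≤ _ := h1
    _ ≤ (∫ t, ρ t * (9 * CC (fam F) A (rez W y (t - E)) y)) +
        (2 * L * C1 * C0 * a1 + (L * C1 * a2) ^ 2) * (P365T2.H913.CLy L E ^ 2 * (1 + ℓ) ^ 2 *
          (-(W y).im * ∑ j, Yf A W (F j) y)) := by linarith
    _ = _ := by ring

end site

end P365T2.H678
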