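import Vale.Agent.P365.T2.H678.LawSite

/-!
# P365 T2, X-LAWERR (3): from the one-site bound of the law error of `Ups` to the average

* `sum_CC_le`: the contents sum up to the energy;
* `err_total`: `|ErrSum| ≤ 45 PhiG F + K (1 + ℓ)² YG F` for the entropy functional, from `SiteLaw`.
-/

set_option linter.all false

namespace P365T2.H678

open MeasureTheory Set Filter Finset P365L P365O P365T1 Vale.Agent.P365.J376 P365L.T2.Path
open P365T2.H844 P365H878
open scoped ComplexConjugate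
open P365T2.H37 (wk HH HD rho)
open Vale.Agent.P365.T2.H789 (Dens ErrSum AvS abs_ErrSum_le smLaw_integral)

section det

variable {E : Type*} [NormedAddCommGroup E] [InnerProductSpace ℝ E]
variable {ι : Type*} [Fintype ι] [DecidableEq ι] {Φ : ι → E} {A : Matrix ι ι ℝ} {W : ι → ℂ}

/-- **the contents of all sites sum up to the energy** -/
theorem sum_CC_le (hA : A.IsSymm) (hW : ∀ x, (W x).im < 0) {om : ι → ℝ}
    (ho : ∀ x, 0 ≤ om x) (ho1 : ∀ x, om x ≤ 1) :
    ∑ y, om y * CC Φ A W y ≤ 5 * ∑ v, pr (TT A W) v * Vr Φ (TT A W) v := by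
  set Q := TT A W with hQ
  have hQ0 : ∀ x y, 0 ≤ Q x y := TT_nonneg hW
  have hs : ∀ x y, Q x y = Q y x := TT_symm hA
  have hp : ∀ x, 0 < pr Q x := pr_TT_pos hA hW
  have h2 := two_step (Φ := Φ) (J := 0) hQ0 hs hp ho
  have h3 : ∑ x, (∑ y, om y * Q x y) * Vr Φ Q x ≤ ∑ v, pr Q v * Vr Φ Q v := by
    refine sum_le_sum fun x _ => ?_
    refine mul_le_mul_of_nonneg_right ?_ (Vr_nonneg hQ0 hp x)
    unfold pr
    exact sum_le_sum fun y _ => mul_le_of_le_one_left (hQ0 x y) (ho1 y)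
  have h4 : ∑ v, om v * pr Q v * Vr Φ Q v ≤ ∑ v, pr Q v * Vr Φ Q v := by
    refine sum_le_sum fun v _ => ?_
    refine mul_le_mul_of_nonneg_right ?_ (Vr_nonneg hQ0 hp v)
    exact mul_le_of_le_one_left (hp v).le (ho1 v)
  have e1 : ∑ y, om y * CC Φ A W y =
      ∑ k ∈ range (0 + 2), ∑ x, ∑ v, om v * Q x v * Pw Φ Q 0 k v x +
        ∑ x, (∑ y, om y * Q x y) * Vr Φ Q x := by
    have e3 : ∑ k ∈ range (0 + 2), ∑ x, ∑ v, om v * Q x v * Pw Φ Q 0 k v x =
        ∑ x, ∑ v, om v * Q x v * ∑ b, Q v b / pr Q v * tt Φ x b := by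
      rw [sum_comm]
      refine sum_congr rfl fun x _ => ?_
      rw [sum_comm]
      refine sum_congr rfl fun v _ => ?_
      rw [← mul_sum, sum_Pw_one]
    rw [e3]
    unfold CC
    rw [← hQ, ← sum_add_distrib]
    simp only [mul_sum]
    rw [sum_comm]
    refine sum_congr rfl fun x _ => ?_
    rw [sum_mul, ← sum_add_distrib]
    refine sum_congr rfl fun y _ => ?_
    rw [← mul_sum]
    ring
  rw [e1]
  linarith

end det

section avg

variable {ι : Type*} [Fintype ι] [DecidableEq ι] {A : Matrix ι ι ℝ} {Λ : Type*} [Fintype Λ]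
  {p : Λ → ℝ} {ν : Λ → Measure ℝ} {E : ℝ} {κ : Type*} [Fintype κ] {F : κ → ι → ℝ}

theorem continuousOn_sumYf (hA : A.IsSymm) (F : κ → ι → ℝ) (x : ι) :
    ContinuousOn (fun W : ι → ℂ => ∑ j, Yf A W (F j) x) (LH ι) :=
  continuousOn_finset_sum _ fun j _ => (contDiffOn_Yf (n := 0) hA (F j) x).continuousOn

theorem continuousOn_e (x : ι) : ContinuousOn (fun W : ι → ℂ => -(W x).im) (LH ι) :=
  (contDiff_e (n := 0) x).continuous.continuousOn

/-- average of the contents -/
theorem AvS_CC_le (hA : A.IsSymm) [∀ k, IsProbabilityMeasure (ν k)] (hp : ∀ k, 0 ≤ p k) {R : ℝ}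
    (hR : ∀ k, ν k (Icc (-R) R)ᶜ = 0) {e om : (ι → Λ) → ι → ℝ} (he : ∀ l x, 0 < e l x)
    (ho : ∀ l x, 0 ≤ om l x) (ho1 : ∀ l x, om l x ≤ 1) {c : ℝ} (hc : 0 ≤ c) :
    AvS p ν E e om (fun _ x W => c * CC (fam F) A W x) ≤ 5 * c * PhiG A p ν E F e := by
  unfold AvS PhiG AvG
  rw [mul_sum]
  refine sum_le_sum fun l _ => ?_
  have hpr : 0 ≤ ∏ x, p (l x) := prod_nonneg fun x _ => hp _
  have iC : ∀ x, Integrable (fun v => CC (fam F) A (WV E (e l) v) x)
      (Measure.pi fun x => ν (l x)) := fun x =>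
    integrable_of_continuousOn (continuousOn_CC hA x) (fun x => hR (l x)) (he l)
  have h1 : ∑ x, om l x * Ex (fun x => ν (l x)) E (e l) (fun W => c * CC (fam F) A W x) =
      ∫ v, c * ∑ x, om l x * CC (fam F) A (WV E (e l) v) x ∂(Measure.pi fun x => ν (l x)) := by
    unfold Ex
    rw [integral_const_mul, integral_finset_sum _ fun x _ => (iC x).const_mul _, mul_sum]
    refine sum_congr rfl fun x _ => ?_
    rw [integral_const_mul, integral_const_mul]
    ring
  rw [h1]
  have h2 : ∫ v, c * ∑ x, om l x * CC (fam F) A (WV E (e l) v) x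
      ∂(Measure.pi fun x => ν (l x)) ≤
      5 * c * Ex (fun x => ν (l x)) E (e l) (fun W => ∑ k, En A W (F k)) := by
    unfold Ex
    rw [← integral_const_mul]
    refine integral_mono ((integrable_finset_sum _ fun x _ => (iC x).const_mul _).const_mul _)
      ((integrable_of_continuousOn (G := fun W => ∑ k, En A W (F k))
        (continuousOn_finset_sum _ fun k _ => (contDiffOn_En (n := 0) hA (F k)).continuousOn)
        (fun x => hR (l x)) (he l)).const_mul _) fun v => ?_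
    have hW : ∀ x, (WV E (e l) v x).im < 0 := Vale.Agent.P365.J376.WV_neg (he l) v
    have h3 := sum_CC_le (Φ := fam F) hA hW (ho l) (ho1 l)
    rw [sum_pr_Vr_fam hA hW F] at h3
    have h4 := mul_le_mul_of_nonneg_left h3 hc
    show c * ∑ x, om l x * CC (fam F) A (WV E (e l) v) x ≤
      5 * c * ∑ k, En A (WV E (e l) v) (F k)
    linarith
  calc _ ≤ (∏ x, p (l x)) * (5 * c * Ex (fun x => ν (l x)) E (e l)
        (fun W => ∑ k, En A W (F k))) := mul_le_mul_of_nonneg_left h2 hpr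
    _ = _ := by ring

/-- average of the hub part -/
theorem AvS_Yf_eq (hA : A.IsSymm) [∀ k, IsProbabilityMeasure (ν k)] {R : ℝ}
    (hR : ∀ k, ν k (Icc (-R) R)ᶜ = 0) {e w : (ι → Λ) → ι → ℝ} (he : ∀ l x, 0 < e l x) (K : ℝ) :
    AvS p ν E e (fun l x => w l x / e l x)
      (fun _ x W => K * (-(W x).im * ∑ j, Yf A W (F j) x)) = K * YG A p ν E F e w := by
  unfold AvS YG
  rw [mul_sum]
  refine sum_congr rfl fun l _ => ?_
  rw [mul_left_comm]
  congr 1
  rw [mul_sum]
  refine sum_congr rfl fun x _ => ?_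
  have h1 : Ex (fun x => ν (l x)) E (e l) (fun W => K * (-(W x).im * ∑ j, Yf A W (F j) x)) =
      K * (e l x * ∑ j, Ex (fun x => ν (l x)) E (e l) (fun W => Yf A W (F j) x)) := by
    unfold Ex
    rw [integral_const_mul]
    congr 1
    have h2 : ∀ v, -(WV E (e l) v x).im * ∑ j, Yf A (WV E (e l) v) (F j) x =
        e l x * ∑ j, Yf A (WV E (e l) v) (F j) x := by
      intro v
      rw [WV_im_self, neg_neg]
    simp only [h2]
    rw [integral_const_mul, integral_finset_sum]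
    intro j _
    exact integrable_of_continuousOn (contDiffOn_Yf (n := 0) hA (F j) x).continuousOn
      (fun x => hR (l x)) (he l)
  rw [h1]
  have := (he l x).ne'
  field_simp

/-- **X-LAWERR**: the law error of a functional whose angular derivative satisfies `SiteLaw` -/
theorem err_total (hA : A.IsSymm) [∀ k, IsProbabilityMeasure (ν k)] (hp : ∀ k, 0 ≤ p k)
    {lam : ℝ} (hlam : 0 < lam) (hR : ∀ k, ν k (Icc (-lam) lam)ᶜ = 0) {e w : (ι → Λ) → ι → ℝ}
    (he : ∀ l x, 0 < e l x) (hw0 : ∀ l x, 0 ≤ w l x) (hwe : ∀ l x, w l x ≤ e l x)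
    {ρ ρ' : Λ → ℝ → ℝ} {C0 C1 : ℝ}
    (hD : ∀ l x, w l x ≠ 0 → Dens (ρ (l x)) (ρ' (l x)) lam C0 C1)
    (hsm : ∀ l x, w l x ≠ 0 → SmLaw (ν (l x)) (ρ (l x)) (ρ' (l x)))
    {ℓ : ℝ} (hℓ : 0 ≤ ℓ) (hlow : ∀ l x, w l x ≠ 0 → Real.exp (-ℓ) ≤ e l x)
    {th1 th2 : ι → (ι → ℂ) → ℝ} {a1 a2 : ℝ}
    (hS : ∀ y, SiteLaw (fam F) A y (th1 y) (th2 y) a1 a2) {Fn : (ι → Λ) → (ι → ℂ) → ℝ} {c : ℝ}
    (hc : |c| ≤ 1)
    (hHV : ∀ l x, w l x ≠ 0 → ∀ W ∈ LH ι,
      HV A (Fn l) x W = c * (-(W x).im * (th1 x W + th2 x W))) :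
    |ErrSum A p ν E e (fun l x => w l x / e l x) ρ' Fn| ≤
      45 * PhiG A p ν E F e +
        (2 * lam * C1 * C0 * a1 + (lam * C1 * a2) ^ 2) *
          (P365T2.H913.CLy lam E ^ 2 * (1 + ℓ) ^ 2) * YG A p ν E F e w := by
  set K : ℝ := (2 * lam * C1 * C0 * a1 + (lam * C1 * a2) ^ 2) *
          (P365T2.H913.CLy lam E ^ 2 * (1 + ℓ) ^ 2) with hK
  have hom0 : ∀ l x, 0 ≤ w l x / e l x := fun l x => div_nonneg (hw0 l x) (he l x).le
  have hom1 : ∀ l x, w l x / e l x ≤ 1 := fun l x => (div_le_one (he l x)).2 (hwe l x)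
  have hne : ∀ l x, w l x / e l x ≠ 0 → w l x ≠ 0 := fun l x h h0 => h (by rw [h0, zero_div])
  have h1 := abs_ErrSum_le (A := A) (p := p) (ν := ν) (E := E) hp hR he hom0 (rd := ρ') (F := Fn)
    (G := fun _ x W => 9 * CC (fam F) A W x)
    (B := fun _ x W => K * (-(W x).im * ∑ j, Yf A W (F j) x))
    (fun l x _ => continuousOn_const.mul (continuousOn_CC hA x))
    (fun l x _ => integrable_of_continuousOn
      (G := fun W => K * (-(W x).im * ∑ j, Yf A W (F j) x))
      (continuousOn_const.mul ((continuousOn_e x).mul (continuousOn_sumYf hA F x)))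
      (fun x => hR (l x)) (he l))
    (fun l x hx v => by
      have hw := hne l x hx
      have hW : WV E (e l) v ∈ LH ι := Vale.Agent.P365.J376.WV_neg (he l) v
      have hex : -(WV E (e l) v x).im = e l x := by rw [WV_im_self, neg_neg]
      have h2 := site_final (F := F) (E := E) (W := WV E (e l) v) (y := x) hA hW (hS x)
        (hD l x hw) hlam hℓ (by rw [hex]; exact hlow l x hw)
      rw [smLaw_integral (hsm l x hw)]
      have e1 : ∀ t, ρ' (l x) t * HV A (Fn l) x (rez (WV E (e l) v) x (t - E)) =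
          c * (-(WV E (e l) v x).im) * (ρ' (l x) t *
            (th1 x (rez (WV E (e l) v) x (t - E)) + th2 x (rez (WV E (e l) v) x (t - E)))) := by
        intro t
        rw [hHV l x hw _ (rez_mem' hW x _), rez_self_im]
        ring
      simp only [Vale.Agent.P365.J376.WV_update, e1]
      rw [integral_const_mul, abs_mul, abs_mul]
      have hexp : 0 < -(WV E (e l) v x).im := by rw [hex]; exact he l x
      rw [abs_of_pos hexp]
      refine le_trans ?_ h2
      have h3 : 0 ≤ -(WV E (e l) v x).im * |∫ t, ρ' (l x) t *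
            (th1 x (rez (WV E (e l) v) x (t - E)) + th2 x (rez (WV E (e l) v) x (t - E)))| := by
        positivity
      calc _ = |c| * (-(WV E (e l) v x).im * |∫ t, ρ' (l x) t *
            (th1 x (rez (WV E (e l) v) x (t - E)) + th2 x (rez (WV E (e l) v) x (t - E)))|) := by
              ring
        _ ≤ 1 * _ := mul_le_mul_of_nonneg_right hc h3
        _ = _ := one_mul _)
  refine h1.trans (add_le_add ?_ (AvS_Yf_eq hA hR he K).le)
  have h5 := AvS_CC_le (F := F) (A := A) (p := p) (ν := ν) (E := E) hA hp hR he hom0 hom1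
    (c := 9) (by norm_num)
  linarith

end avg

end P365T2.H678
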