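import Vale.Agent.P365.T2.H678.LawSum
import Vale.Agent.P365.T2.H509.UFlowS
import Vale.Agent.P365.T2.H618.LEC
import Vale.Agent.P365.T2.H320.UHub
import Vale.Agent.P365.T2.H417.UDer
import Vale.Agent.P365.T2.H831.UPart2
import Vale.Agent.P365.T2.H698.OneOutF

/-!
# P365 T2, X-LAWERR: the law error of the entropy over a stage

* `dens_nuS`: the raw data of the smooth law;
* `sum_ContXY`: the content of 618 is `CC`;
* `err_gen`: from a one-site bound (content with the factor `c`, hub with the factor `K`) to the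
  average over labels and potentials;
* `Yg_le_sum_kf`: the total family is one of the level families;
* `err_stW`: the same over a stage `StW`.
-/

set_option linter.all false

namespace P365T2.H678

open MeasureTheory Set Filter Finset P365L P365O P365T1 Vale.Agent.P365.J376 P365L.T2.Path
open P365T2.H844 P365H878 P365T2.H213 P365T2.H320U P365T1.Smooth755 P365T1.Conc
open scoped ComplexConjugate
open P365T2.H37 (wk HH HD rho Hc)
open Vale.Agent.P365.T2.H789 (Dens ErrSum AvS abs_ErrSum_le smLaw_integral dens_of_smLaw)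

/-! ### the law -/

theorem dens_nuS {lam l : ℝ} (hl : 0 < l) (h : l < lam) :
    Dens (rhoS lam l) (rhoSd lam l) lam (2 * (lam - l))⁻¹ (K1 lam l) := by
  haveI : IsProbabilityMeasure (nuS lam l) := isProbabilityMeasure_nuS hl h
  exact dens_of_smLaw (smLaw_nuS hl h) (hl.trans h).le
    (fun t ht => P365T2.H722.rhoS_eq_zero hl h ht.le) (fun t => rhoS_le hl h t)
    (fun t => abs_rhoSd_le hl h t)

/-! ### content -/

section content

variable {X : Type*} [NormedAddCommGroup X] [InnerProductSpace ℝ X]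
variable {ι : Type*} [Fintype ι] [DecidableEq ι] {Φ : ι → X} {A : Matrix ι ι ℝ}

theorem sum_ContXY (J : ℕ) (y : ι) (W : ι → ℂ) :
    ∑ x, ∑ k ∈ range (J + 2), P365T2.H618.ContXY Φ A J k x y W = CC Φ A W y := by
  unfold CC
  refine sum_congr rfl fun x _ => ?_
  unfold P365T2.H618.ContXY
  rw [← mul_sum, sum_add_distrib, sum_Pw_one, sum_Pw_self]

end content

/-! ### average -/

section avg

variable {ι : Type*} [Fintype ι] [DecidableEq ι] {A : Matrix ι ι ℝ} {Λ : Type*} [Fintype Λ]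
  {p : Λ → ℝ} {ν : Λ → Measure ℝ} {E : ℝ} {κ : Type*} [Fintype κ] {F : κ → ι → ℝ}

/-- **from the one-site bound to the average** -/
theorem err_gen (hA : A.IsSymm) [∀ k, IsProbabilityMeasure (ν k)] (hp : ∀ k, 0 ≤ p k)
    {R : ℝ} (hR : ∀ k, ν k (Icc (-R) R)ᶜ = 0) {e w : (ι → Λ) → ι → ℝ}
    (he : ∀ l x, 0 < e l x) (hw0 : ∀ l x, 0 ≤ w l x) (hwe : ∀ l x, w l x ≤ e l x)
    {ρ' : Λ → ℝ → ℝ} {c K : ℝ} (hc : 0 ≤ c) {Fn : (ι → Λ) → (ι → ℂ) → ℝ}
    (hOne : ∀ l x, w l x ≠ 0 → ∀ v,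
      |∫ t : ℝ, ρ' (l x) t * HV A (Fn l) x (WV E (e l) (Function.update v x t))| ≤
        K * (e l x * ∑ j, Yf A (WV E (e l) v) (F j) x) +
          c * ∫ t, CC (fam F) A (WV E (e l) (Function.update v x t)) x ∂(ν (l x))) :
    |ErrSum A p ν E e (fun l x => w l x / e l x) ρ' Fn| ≤
      5 * c * PhiG A p ν E F e + K * YG A p ν E F e w := by
  have hom0 : ∀ l x, 0 ≤ w l x / e l x := fun l x => div_nonneg (hw0 l x) (he l x).le
  have hom1 : ∀ l x, w l x / e l x ≤ 1 := fun l x => (div_le_one (he l x)).2 (hwe l x)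
  have hne : ∀ l x, w l x / e l x ≠ 0 → w l x ≠ 0 := fun l x h h0 => h (by rw [h0, zero_div])
  have h1 := abs_ErrSum_le (A := A) (p := p) (ν := ν) (E := E) hp hR he hom0 (rd := ρ') (F := Fn)
    (G := fun _ x W => c * CC (fam F) A W x)
    (B := fun _ x W => K * (-(W x).im * ∑ j, Yf A W (F j) x))
    (fun l x _ => continuousOn_const.mul (continuousOn_CC hA x))
    (fun l x _ => integrable_of_continuousOn
      (G := fun W => K * (-(W x).im * ∑ j, Yf A W (F j) x))
      (continuousOn_const.mul ((continuousOn_e x).mul (continuousOn_sumYf hA F x)))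
      (fun x => hR (l x)) (he l))
    (fun l x hx v => by
      refine (hOne l x (hne l x hx) v).trans (le_of_eq ?_)
      have hex : -(WV E (e l) v x).im = e l x := by rw [WV_im_self, neg_neg]
      rw [integral_const_mul, hex]
      ring)
  refine h1.trans (add_le_add ?_ (AvS_Yf_eq hA hR he K).le)
  exact AvS_CC_le (F := F) (A := A) (p := p) (ν := ν) (E := E) hA hp hR he hom0 hom1 hc

end avg

/-! ### families -/

section fam

variable {ι : Type*} [Fintype ι] [DecidableEq ι] {A : Matrix ι ι ℝ} {Λ : Type*} [Fintype Λ]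
  {p : Λ → ℝ} {ν : Λ → Measure ℝ} {E : ℝ} {κ : Type*} [Fintype κ] {κ' : Type*} [Fintype κ']

/-- the sum of the `Yf` depends only on the squared distance of the family -/
theorem sum_Yf_congr {F : κ → ι → ℝ} {F' : κ' → ι → ℝ}
    (h : ∀ x y, ∑ j, (F j x - F j y) ^ 2 = ∑ j, (F' j x - F' j y) ^ 2) (W : ι → ℂ) (x : ι) :
    ∑ j, Yf A W (F j) x = ∑ j, Yf A W (F' j) x := by
  unfold Yf
  rw [← sum_div, ← sum_div]
  congr 1
  unfold Nf
  rw [sum_comm, sum_comm (f := fun j b => _ * (F' j b - F' j x) ^ 2)]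
  refine sum_congr rfl fun b _ => ?_
  rw [← mul_sum, ← mul_sum, h]

theorem sum_Ex_Yf (hA : A.IsSymm) [∀ k, IsProbabilityMeasure (ν k)] {R : ℝ}
    (hR : ∀ k, ν k (Icc (-R) R)ᶜ = 0) {e : (ι → Λ) → ι → ℝ} (he : ∀ l x, 0 < e l x)
    (F : κ → ι → ℝ) (l : ι → Λ) (x : ι) :
    ∑ k, Ex (fun x => ν (l x)) E (e l) (fun W => Yf A W (F k) x) =
      Ex (fun x => ν (l x)) E (e l) (fun W => ∑ k, Yf A W (F k) x) := by
  unfold Ex
  rw [integral_finset_sum]
  intro j _
  exact integrable_of_continuousOn (contDiffOn_Yf (n := 0) hA (F j) x).continuousOn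
    (fun x => hR (l x)) (he l)

theorem YG_congr {F : κ → ι → ℝ} {F' : κ' → ι → ℝ} (hA : A.IsSymm)
    [∀ k, IsProbabilityMeasure (ν k)] {R : ℝ} (hR : ∀ k, ν k (Icc (-R) R)ᶜ = 0)
    (h : ∀ x y, ∑ j, (F j x - F j y) ^ 2 = ∑ j, (F' j x - F' j y) ^ 2)
    {e w : (ι → Λ) → ι → ℝ} (he : ∀ l x, 0 < e l x) :
    YG A p ν E F e w = YG A p ν E F' e w := by
  unfold YG
  refine sum_congr rfl fun l _ => ?_
  congr 1
  refine sum_congr rfl fun x _ => ?_
  rw [sum_Ex_Yf hA hR he F l x, sum_Ex_Yf hA hR he F' l x]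
  congr 2
  funext W
  exact sum_Yf_congr h W x

end fam

/-! ### over a stage -/

section stage

variable {N : ℕ} [NeZero N] {W : StW N} {lam E C1 η : ℝ}

theorem wT_nonneg' (h : W.Ok lam E C1 η) (τ : ℝ) (l : Tor N → W.Λ) (x : Tor N) :
    0 ≤ wT W.w τ l x := mul_nonneg (Real.exp_pos _).le (h.w_nonneg l x)

/-- the total family is the last level family -/
theorem Yg_le_sum_kf (h : W.Ok lam E C1 η) {κ : Type} [Fintype κ] (F : κ → Tor N → ℝ) (J : ℕ)
    (τ : ℝ) : W.Yg E F τ ≤ ∑ k ∈ range (J + 3), W.Yg E (kf F J k) τ := by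
  haveI := h.prob
  have he : ∀ l x, 0 < eT W.u W.w τ l x := P365T2.H912.eT_pos h τ
  have e1 : W.Yg E F τ = W.Yg E (kf F J (J + 2)) τ := by
    unfold StW.Yg
    refine YG_congr (AT_symm N) h.supp (fun x y => ?_) he
    rw [kf_spec]
    unfold P365T2.H37.Hc dF
    rw [if_neg (by omega), if_neg (by omega)]
  rw [e1]
  refine single_le_sum (f := fun k => W.Yg E (kf F J k) τ) (fun k _ => ?_)
    (mem_range.2 (by omega))
  exact YG_nonneg h.p_nonneg he (wT_nonneg' h τ)

/-- `e ≥ exp (-2 S)` at the moving sites -/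
theorem eT_ge (h : W.Ok lam E C1 1) {τ : ℝ} (hτ : τ ∈ Icc 0 W.S) (l : Tor N → W.Λ) (x : Tor N)
    (hx : W.w l x ≠ 0) : Real.exp (-(2 * W.S)) ≤ eT W.u W.w τ l x := by
  have h1 := h.w_ge l x hx
  have h2 : Real.exp (-(2 * W.S)) = Real.exp (-W.S) * Real.exp (-(1 * W.S)) := by
    rw [← Real.exp_add]
    congr 1
    ring
  have h3 : Real.exp (-W.S) ≤ Real.exp (-τ) := Real.exp_le_exp.2 (by linarith [hτ.2])
  have h4 := mul_le_mul h3 h1 (Real.exp_pos _).le (Real.exp_pos _).le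
  obtain ⟨b, hb, hu⟩ := h.u_pos
  have h5 := hu l x
  unfold eT
  rw [h2]
  linarith

end stage

/-- the constant -/
noncomputable def CUL (lam T : ℝ) : ℝ :=
  P365T2.H913.CY lam (2 * (lam - lam * tau0 / 2))⁻¹ (K1 lam (lam * tau0 / 2)) (200 * (T + 1))
    (200 * Real.exp (T / 2)) 1

/-- **X-LAWERR is closed: the law error of the entropy over a stage** -/
theorem uLaw {lam E C1 : ℝ} (hlam : 0 < lam) (hC1 : 0 < C1) : P365T2.H831.ULaw lam E C1 := by
  have hl := l0_pos hlam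
  have hll := l0_lt hlam
  have hM : 0 ≤ (2 * (lam - lam * tau0 / 2))⁻¹ := (inv_pos.2 (by linarith)).le
  have hK1 : 0 ≤ K1 lam (lam * tau0 / 2) := (abs_nonneg _).trans (abs_rhoSd_le hl hll 0)
  refine ⟨25, by norm_num, fun T hT => ?_⟩
  have hCU : 0 ≤ CUL lam T := P365T2.H913.CY_nonneg hlam.le hM hK1 (by positivity) one_pos
  refine ⟨CUL lam T * (C1 + 4) * (P365T2.H913.CLy lam E ^ 2 * 9), by positivity,
    fun N _ W h τ hτ => ?_⟩
  haveI := h.prob
  set J := P365T2.X629.nJ C1 W.S with hJ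
  have hS1 : 1 ≤ W.S := by
    have := h.S_ge
    rwa [div_one] at this
  have he : ∀ l x, 0 < eT W.u W.w τ l x := P365T2.H912.eT_pos h τ
  have hw0 := wT_nonneg' (W := W) h τ
  have hwe : ∀ l x, wT W.w τ l x ≤ eT W.u W.w τ l x := by
    intro l x
    obtain ⟨b, hb, hu⟩ := h.u_pos
    have := hu l x
    unfold eT wT
    linarith
  have hJ0 : (0 : ℝ) ≤ (J : ℝ) + 2 := by positivity
  set K : ℝ := CUL lam T * (J + 2) * (P365T2.H913.CLy lam E ^ 2 * (1 + 2 * W.S) ^ 2) with hK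
  have h1 := err_gen (A := AT N) (p := W.p) (ν := W.ν) (E := E) (F := fR N J)
    (e := eT W.u W.w τ) (w := wT W.w τ) (AT_symm N) h.p_nonneg h.supp he hw0 hwe
    (ρ' := fun _ => rhoSd lam (lam * tau0 / 2)) (c := 5) (K := K) (by norm_num)
    (Fn := fun _ => Vale.Agent.P365.T2.H417.Sig (PhiR N J) (AT N) (Real.exp (-T)) J)
    (fun l x hx v => by
      have hwx : W.w l x ≠ 0 := fun h0 => hx (by unfold wT; rw [h0, mul_zero])
      have hsm : SmLaw (W.ν (l x)) (rhoS lam (lam * tau0 / 2)) (rhoSd lam (lam * tau0 / 2)) := by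
        rw [h.mov l x hwx]
        exact smLaw_nuS hl hll
      have h2 := P365T2.H698.one_out_fam (E := E) (AT_symm N) (fR N J) (T := T) (by linarith) J
        P365T2.H831.ttfR_le x hsm (dens_nuS hl hll) hlam (he l) v one_pos
      have h3 : max 0 (Real.log (1 / eT W.u W.w τ l x)) ≤ 2 * W.S := by
        refine max_le (by linarith) ?_
        rw [one_div, Real.log_inv]
        have h4 := Real.log_le_log (Real.exp_pos _) (eT_ge h hτ l x hwx)
        rw [Real.log_exp] at h4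
        linarith
      have h3' : 0 ≤ max 0 (Real.log (1 / eT W.u W.w τ l x)) := le_max_left _ _
      have hY : 0 ≤ eT W.u W.w τ l x *
          ∑ j, Yf (AT N) (WV E (eT W.u W.w τ l) v) (fR N J j) x :=
        mul_nonneg (he l x).le (sum_nonneg fun j _ =>
          Yf_nonneg (Vale.Agent.P365.J376.WV_neg (he l) v) _ _)
      have e1 : P365T2.H913.CY lam (2 * (lam - lam * tau0 / 2))⁻¹ (K1 lam (lam * tau0 / 2))
          (200 * (T + 1) * (J + 2)) (200 * Real.exp (T / 2) * √(J + 2)) 1 =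
          CUL lam T * (J + 2) := by
        unfold CUL P365T2.H913.CY
        have := Real.sq_sqrt hJ0
        rw [show (2 * lam * K1 lam (lam * tau0 / 2) * (200 * Real.exp (T / 2) * √((J : ℝ) + 2))) ^ 2
          = (2 * lam * K1 lam (lam * tau0 / 2) * (200 * Real.exp (T / 2))) ^ 2 *
            (√((J : ℝ) + 2)) ^ 2 by ring, this]
        ring
      rw [e1] at h2
      refine h2.trans (add_le_add ?_ (le_of_eq ?_))
      · rw [hK]
        have h5 : 0 ≤ CUL lam T * (J + 2) := mul_nonneg hCU hJ0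
        have h6 : (1 + max 0 (Real.log (1 / eT W.u W.w τ l x))) ^ 2 ≤ (1 + 2 * W.S) ^ 2 :=
          pow_le_pow_left₀ (by linarith) (by linarith) 2
        have h7 := mul_le_mul_of_nonneg_left h6 (sq_nonneg (P365T2.H913.CLy lam E))
        have h8 := mul_le_mul_of_nonneg_right h7 hY
        have h9 := mul_le_mul_of_nonneg_left h8 h5
        linarith
      · unfold P365T2.H698.Cont
        simp only [sum_ContXY]
        norm_num)
  have e2 : (∑ l : Tor N → W.Λ, (∏ x, W.p (l x)) * ∑ y, omT W.u W.w τ l y *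
        ErrF (AT N) (fun x => W.ν (l x)) E (eT W.u W.w τ l) (rhoSd lam (lam * tau0 / 2))
          (Vale.Agent.P365.T2.H417.Sig (PhiR N J) (AT N) (Real.exp (-T)) J) y) =
      ErrSum (AT N) W.p W.ν E (eT W.u W.w τ) (fun l x => wT W.w τ l x / eT W.u W.w τ l x)
        (fun _ => rhoSd lam (lam * tau0 / 2))
        (fun _ => Vale.Agent.P365.T2.H417.Sig (PhiR N J) (AT N) (Real.exp (-T)) J) := rfl
  rw [e2]
  refine h1.trans ?_
  have hY := Yg_le_sum_kf (E := E) h (fR N J) J τ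
  have hY0 : 0 ≤ W.Yg E (fR N J) τ := YG_nonneg h.p_nonneg he hw0
  have e3 : YG (AT N) W.p W.ν E (fR N J) (eT W.u W.w τ) (wT W.w τ) = W.Yg E (fR N J) τ := rfl
  have e4 : PhiG (AT N) W.p W.ν E (fR N J) (eT W.u W.w τ) = W.Phi E (fR N J) τ := rfl
  rw [e3, e4]
  have hJle : (J : ℝ) + 2 ≤ (C1 + 4) * W.S := by
    have := P365T2.H831.nJ_le hC1 hS1
    rw [← hJ] at this
    nlinarith
  have hKle : K ≤ CUL lam T * (C1 + 4) * (P365T2.H913.CLy lam E ^ 2 * 9) * W.S ^ 5 := by
    rw [hK]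
    have h2 : (1 + 2 * W.S) ^ 2 ≤ 9 * W.S ^ 2 := by nlinarith
    have h3 : CUL lam T * (J + 2) ≤ CUL lam T * ((C1 + 4) * W.S) :=
      mul_le_mul_of_nonneg_left hJle hCU
    have h4 : P365T2.H913.CLy lam E ^ 2 * (1 + 2 * W.S) ^ 2 ≤
        P365T2.H913.CLy lam E ^ 2 * (9 * W.S ^ 2) :=
      mul_le_mul_of_nonneg_left h2 (sq_nonneg _)
    have h5 : W.S ^ 3 ≤ W.S ^ 5 := pow_le_pow_right₀ hS1 (by norm_num)
    calc CUL lam T * (J + 2) * (P365T2.H913.CLy lam E ^ 2 * (1 + 2 * W.S) ^ 2)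
        ≤ CUL lam T * ((C1 + 4) * W.S) * (P365T2.H913.CLy lam E ^ 2 * (9 * W.S ^ 2)) :=
          mul_le_mul h3 h4 (by positivity) (by positivity)
      _ = CUL lam T * (C1 + 4) * (P365T2.H913.CLy lam E ^ 2 * 9) * W.S ^ 3 := by ring
      _ ≤ _ := mul_le_mul_of_nonneg_left h5 (by positivity)
  calc 5 * 5 * W.Phi E (fR N J) τ + K * W.Yg E (fR N J) τ
      ≤ 25 * W.Phi E (fR N J) τ +
        (CUL lam T * (C1 + 4) * (P365T2.H913.CLy lam E ^ 2 * 9) * W.S ^ 5) *
          ∑ k ∈ range (J + 3), W.Yg E (kf (fR N J) J k) τ := by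
        refine add_le_add (by linarith) ?_
        exact mul_le_mul hKle hY hY0 (by positivity)
    _ = _ := by ring

end P365T2.H678
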