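import Vale.Agent.P365.T2.H678.ULaw

/-!
# P365 T2: 912's `UPart`, no hypothesis left (831's composition over `uLaw`)
-/

set_option linter.all false

namespace P365T2.H678

open P365T2.X629

/-- **the entropy part of the X side** -/
theorem uPart {lam E C1 : ℝ} (hlam : 0 < lam) (hC1 : 0 < C1) :
    P365T2.H912.UPart lam E C1 (fun N _ W t => EnX W E C1 t) (fun N _ W t => LossX W E C1 t)
      (fun T N _ W t => PosX W E C1 T t) :=
  P365T2.H831.uPart_of_law hlam hC1 (uLaw hlam hC1)

end P365T2.H678
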